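import Vale.Agent.P371.Cal.Main

/-!
# P371: the sharp one-dimensional Lieb-Thirring constants, `1/2 < γ < 3/2`

Lifting (`Lift`), calibration (`Cal`) and the spectral shell (`Shell`) give
`L_γ(m) = L_γ(1) = L¹_γ` for every `m`.
-/

open Vale.Agent.P371

namespace Vale.Agent.Results.P371.LiebThirring1D

theorem result : ∀ γ : ℝ, 1 / 2 < γ → γ < 3 / 2 →
    IsLUB (sLTRatios γ) (L1 γ) ∧ ∀ m : ℕ, 1 ≤ m → IsLUB (mLTRatios γ m) (L1 γ) := fun γ h1 h2 =>
  have h0 : 0 < γ := by linarith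
  have hlift : ∀ k, LiftBound γ k := fun k => liftBound_of_cal h0 (Cal.calBound h1 h2 k)
  ⟨isLUB_sLTRatios h1 (sCoreBound_of_lift h1 (hlift 1)), fun _ hm =>
    isLUB_mLTRatios h1 (mCoreBound_of_lift h1 hlift) hm⟩

end Vale.Agent.Results.P371.LiebThirring1D
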